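import Vale.Agent.P286EXC.Aug
import Vale.Agent.P286EXB.Dr
import Vale.Agent.P286EXI.Tm

/-!
# The evaluation map from the de Rham complex of the bar construction to the total
-/

set_option linter.all false

namespace Vale.Agent.P286EX

open CategoryTheory TensorProduct Vale.Agent.P286 Vale.Agent.P286.St Vale.Agent.P286.H847
  Vale.Agent.P286.H353 Vale.Agent.P286.H710 Vale.Agent.P286.H697
open Vale.Agent.P286.H761 (CS CO ConF sz sz_smul sz_zero)
open Vale.Agent.P286EK (DGA DD DM mdc UU ssz)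

noncomputable section

variable {T : TSite} {S : GS T} {I : Type} [SmallCategory I] {ix : T.C ⥤ I} {A : DD I}

/-- The comparison of the cosimplicial points with the objects under a test object. -/
structure JD (pt : PT ix) (L : MD T) : Type 1 where
  j : ∀ X k, (pt.P (ix.obj X)).P k ⟶ (L.U X).P k
  j_fc : ∀ X k l, l ≤ k + 1 → (pt.P (ix.obj X)).fc k l ≫ j X (k + 1) = j X k ≫ (L.U X).fc k l
  j_M : ∀ {X Y : T.C} (φ : X ⟶ Y) k, j X k ≫ L.M φ k = (pt.m (ix.map φ)).f k ≫ j Y k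
  j_a : ∀ X k, pt.a (ix.obj X) k ≫ ix.map (j X k) = ix.map (L.u X k)

/-- The sign operator of the de Rham complex of the generator. -/
abbrev BD.σ (B : BD S ix A) (X : T.C) : Sg (drO (bT T X) (B.P.K X)) := (B.ρ X).sgD (bT T X)

/-- An evaluation pairing. -/
structure EV (B : BD S ix A) (M : DM (pull A ix)) (F : OT T) : Type 1 where
  e : ∀ X, B.P.V X →ₗ[ℂ] (M.M X).V →ₗ[ℂ] (F.F X).M.V
  e_smul : ∀ X (w : Om ℂ (T.R X)) q η, e X (w • q) η = w • e X q η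
  e_d : ∀ X q η, (F.F X).M.d (e X q η) =
    e X ((B.P.K X).D (bT T X) q) η + e X ((B.σ X).s q) ((M.M X).d η)
  e_gr : ∀ X (i j : ℤ) q η, q ∈ (B.P.K X).gr i → η ∈ (M.M X).gr j → e X q η ∈ (F.F X).M.gr (i + j)
  e_act : ∀ X a q η, e X ((B.ρ X).raD a q) η = e X q ((M.M X).act a η)
  e_t : ∀ {X Y : T.C} (φ : X ⟶ Y) q η, e Y (B.P.gt φ q) ((M.ρ φ).f η) = F.t φ (e X q η)

namespace BD

variable (B : BD S ix A)

/-- The power of the sign operator. -/
def sz (X : T.C) (n : ℤ) : B.P.V X →ₗ[ℂ] B.P.V X := (B.σ X).sz n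

theorem sz_zero (X : T.C) (q : B.P.V X) : B.sz X 0 q = q := (B.σ X).sz_zero q

theorem sz_s (X : T.C) (n : ℤ) (q : B.P.V X) : B.sz X n ((B.σ X).s q) = B.sz X (n + 1) q :=
  (B.σ X).sz_s n q

theorem s_sz (X : T.C) (n : ℤ) (q : B.P.V X) : (B.σ X).s (B.sz X n q) = B.sz X (n + 1) q :=
  (B.σ X).s_sz n q

theorem sz_two (X : T.C) (k : ℕ) (q : B.P.V X) :
    B.sz X (((k + 1 : ℕ) : ℤ) + 1) q = B.sz X k q := by
  rw [show (((k + 1 : ℕ) : ℤ) + 1) = k + 2 by push_cast; ring]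
  exact ((B.σ X).sz_sz k 2 q).symm.trans (congrArg _ ((B.σ X).sz_even (by decide) q))

theorem sz_smul' (X : T.C) (n : ℤ) (w : Om ℂ (T.R X)) (q : B.P.V X) :
    B.sz X n (w • q) = Om.sgz n w • B.sz X n q := (B.σ X).sz_smul n w q

theorem sz_D (X : T.C) (k : ℕ) (q : B.P.V X) : B.sz X k ((B.P.K X).D (bT T X) q) =
    (-1 : ℂ) ^ k • (B.P.K X).D (bT T X) (B.sz X k q) :=
  ((B.σ X).sz_d k q).trans (Mid.np_smul k _)

theorem sz_mem (X : T.C) (n : ℤ) {m : ℤ} {q : B.P.V X} (h : q ∈ (B.P.K X).gr m) :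
    B.sz X n q ∈ (B.P.K X).gr m := (B.σ X).sz_mem n h

theorem sz_raD (X : T.C) (n : ℤ) (a : (A.A (ix.obj X)).R) (q : B.P.V X) :
    B.sz X n ((B.ρ X).raD a q) = (B.ρ X).raD ((A.A (ix.obj X)).sz n a) (B.sz X n q) :=
  ((B.ρ X).dr (bT T X)).ssz_ra n a q

theorem gt_sz {X Y : T.C} (φ : X ⟶ Y) (n : ℤ) (q : B.P.V X) :
    B.P.gt φ (B.sz X n q) = B.sz Y n (B.P.gt φ q) :=
  P286EK.ssz_comm (E := ((B.ρ X).dr (bT T X)).toSGD) (E' := ((B.ρ Y).dr (bT T Y)).toSGD)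
    (B.gt_sgD φ) n q

theorem gt_D {X Y : T.C} (φ : X ⟶ Y) (h : T.dl φ = 1) (q : B.P.V X) :
    (B.P.K Y).D (bT T Y) (B.P.gt φ q) = B.P.gt φ ((B.P.K X).D (bT T X) q) := by
  rw [HG.gt_d, eta_of_dl h, zero_smul, sub_zero]

theorem gt_eq {X Y Z : T.C} {φ : X ⟶ Z} {ψ : Z ⟶ Y} {χ : X ⟶ Y} (h : φ ≫ ψ = χ) (q : B.P.V X) :
    B.P.gt ψ (B.P.gt φ q) = B.P.gt χ q := by rw [← HG.gt_comp, h]

theorem as_ind (N : DM A) (X : T.C) {Q : (B.barH N).V X → Prop} (zero : Q 0)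
    (tmul : ∀ q x, Q (B.as N X (q ⊗ₜ[ℂ] x))) (add : ∀ x y, Q x → Q y → Q (x + y))
    (z : (B.barH N).V X) : Q z := by
  obtain ⟨z, rfl⟩ := (B.as N X).surjective z
  induction z using TensorProduct.induction_on with
  | zero => rw [map_zero]; exact zero
  | tmul q x => exact tmul q x
  | add x y hx hy => rw [map_add]; exact add _ _ hx hy

end BD

theorem ρ_eq {C : Type 1} [Category.{0} C] {D : DD C} (M : DM D) {X Y Z Z' : C} {φ : X ⟶ Z}
    {ψ : Z ⟶ Y} {φ' : X ⟶ Z'} {ψ' : Z' ⟶ Y} (h : φ ≫ ψ = φ' ≫ ψ') (x : (M.M X).V) :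
    (M.ρ ψ).f ((M.ρ φ).f x) = (M.ρ ψ').f ((M.ρ φ').f x) := by
  rw [← M.ρ_comp, ← M.ρ_comp, h]

namespace EV

variable {B : BD S ix A} {M M' : DM (pull A ix)} {F F' : OT T} (E : EV B M F) {pt : PT ix}
  {L : MD T} (J : JD pt L)

/-- The level `k` of the pairing. -/
def lv (X : T.C) (k : ℕ) (q : B.P.V X) (η : (M.M ((pt.P (ix.obj X)).P k)).V) :
    (F.F ((L.U X).P k)).M.V :=
  E.e ((L.U X).P k) (B.P.gt (L.u X k) q) ((M.ρ (J.j X k)).f η)

/-- The pairing with values in the total. -/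
def β (X : T.C) : B.P.V X →ₗ[ℂ] (pt.cs M (ix.obj X)).Tot.V →ₗ[ℂ] (L.cs F X).Tot.V :=
  LinearMap.mk₂ ℂ (fun q ξ k => E.lv J X k (B.sz X k q) (ξ k))
    (fun q q' ξ => funext fun k => by
      change E.lv J X k _ _ = E.lv J X k _ _ + E.lv J X k _ _
      simp only [lv, map_add, LinearMap.add_apply])
    (fun c q ξ => funext fun k => by
      change E.lv J X k _ _ = c • E.lv J X k _ _
      simp only [lv, map_smul, LinearMap.smul_apply])
    (fun q ξ ξ' => funext fun k => by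
      change E.lv J X k _ (ξ k + ξ' k) = E.lv J X k _ _ + E.lv J X k _ _
      simp only [lv, map_add])
    (fun c q ξ => funext fun k => by
      change E.lv J X k _ (c • ξ k) = c • E.lv J X k _ _
      simp only [lv, map_smul])

theorem β_apply (X : T.C) (q : B.P.V X) (ξ : (pt.cs M (ix.obj X)).Tot.V) (k : ℕ) :
    E.β J X q ξ k =
      E.e ((L.U X).P k) (B.P.gt (L.u X k) (B.sz X k q)) ((M.ρ (J.j X k)).f (ξ k)) := rfl

theorem β_act (X : T.C) (a : (A.A (ix.obj X)).R) (q : B.P.V X) (ξ : (pt.cs M (ix.obj X)).Tot.V) :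
    E.β J X ((B.ρ X).raD a q) ξ = E.β J X q ((pt.totG M (ix.obj X)).act a ξ) := funext fun k => by
  rw [β_apply, β_apply, PT.totG_act, B.sz_raD, B.gt_raD, E.e_act, M.ρ_act, PT.el_apply]
  refine congrArg (fun b => E.e _ _ ((M.M _).act b _)) ?_
  exact (congrArg (fun α => (A.τ α).f _) (J.j_a X k).symm).trans (A.τ_comp _ _ _)

theorem dl_lv (X : T.C) (k : ℕ) (q : B.P.V X) (η : (M.M ((pt.P (ix.obj X)).P k)).V) :
    (L.cs F X).dl k (E.lv J X k q η) = E.lv J X (k + 1) q ((pt.cs M (ix.obj X)).dl k η) := by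
  rw [CS.dl_apply, CS.dl_apply, lv, lv, map_sum, map_sum]
  refine Finset.sum_congr rfl fun i hi => ?_
  rw [Finset.mem_range] at hi
  rw [map_smul, map_smul, OT.th_f, ← E.e_t, B.gt_eq (L.u_fc X k i (by omega)),
    ρ_eq M (J.j_fc X k i (by omega))]

theorem d_lv (X : T.C) (k : ℕ) (q : B.P.V X) (η : (M.M ((pt.P (ix.obj X)).P k)).V) :
    (-1 : ℂ) ^ k • (F.F _).M.d (E.lv J X k (B.sz X k q) η) =
      E.lv J X k (B.sz X k ((B.P.K X).D (bT T X) q)) η +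
        E.lv J X k (B.sz X k ((B.σ X).s q)) ((-1 : ℂ) ^ k • (M.M _).d η) := by
  rw [lv, lv, lv, E.e_d, B.gt_D _ (L.dl_u X k), B.sz_D, B.sz_s, ← B.s_sz, B.gt_sgD, map_smul,
    map_smul, map_smul, map_smul, (M.ρ _).comm, smul_add, LinearMap.smul_apply]

theorem β_d (X : T.C) (q : B.P.V X) (ξ : (pt.cs M (ix.obj X)).Tot.V) :
    (L.cs F X).D (E.β J X q ξ) = E.β J X ((B.P.K X).D (bT T X) q) ξ +
      E.β J X ((B.σ X).s q) ((pt.cs M (ix.obj X)).D ξ) := by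
  funext k
  match k with
  | 0 =>
    have h := E.d_lv J X 0 q (ξ 0)
    rw [pow_zero, one_smul, one_smul] at h
    exact h
  | (k + 1) =>
    have h := E.d_lv J X (k + 1) q (ξ (k + 1))
    have h2 := E.dl_lv J X k (B.sz X k q) (ξ k)
    rw [← B.sz_two, ← B.sz_s] at h2
    change (-1 : ℂ) ^ (k + 1) • (F.F _).M.d (E.lv J X (k + 1) (B.sz X (k + 1 : ℕ) q) (ξ (k + 1))) +
      (L.cs F X).dl k (E.lv J X k (B.sz X k q) (ξ k)) =
      E.lv J X (k + 1) (B.sz X (k + 1 : ℕ) ((B.P.K X).D (bT T X) q)) (ξ (k + 1)) +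
      E.lv J X (k + 1) (B.sz X (k + 1 : ℕ) ((B.σ X).s q)) ((-1 : ℂ) ^ (k + 1) •
        (M.M _).d (ξ (k + 1)) + (pt.cs M (ix.obj X)).dl k (ξ k))
    rw [h, ← B.sz_two X k q, ← B.sz_s, h2, add_assoc]
    simp only [lv, map_add]

theorem β_gr (X : T.C) (i j : ℤ) (q : B.P.V X) (ξ : (pt.cs M (ix.obj X)).Tot.V)
    (hq : q ∈ (B.P.K X).gr i) (hξ : ξ ∈ (pt.cs M (ix.obj X)).Tot.gr j) :
    E.β J X q ξ ∈ (L.cs F X).Tot.gr (i + j) := fun k => by
  have h := E.e_gr _ i (j - k) _ _ (B.P.gau.t_gr (L.u X k) i _ (B.sz_mem X k hq))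
    ((M.ρ (J.j X k)).deg _ _ (hξ k))
  rw [← add_sub_assoc] at h
  exact h

theorem β_smul (X : T.C) (w : Om ℂ (T.R X)) (q : B.P.V X) (ξ : (pt.cs M (ix.obj X)).Tot.V) :
    E.β J X (w • q) ξ = L.act F X w (E.β J X q ξ) := funext fun k => by
  rw [MD.act_apply, β_apply, β_apply, B.sz_smul', HG.gt_smul, E.e_smul, MD.ρ_apply]

theorem β_tr' {X Y : T.C} (φ : X ⟶ Y) (q : B.P.V X) (ξ : (pt.cs M (ix.obj X)).Tot.V)
    (ξ' : (pt.cs M (ix.obj Y)).Tot.V) (h : ∀ k, ξ' k = (M.ρ ((pt.m (ix.map φ)).f k)).f (ξ k)) :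
    E.β J Y (B.P.gt φ q) ξ' = L.tr F φ (E.β J X q ξ) :=
  funext fun k => by
    rw [MD.tr_apply, β_apply, β_apply, ← E.e_t, ← B.gt_sz, B.gt_eq (L.u_M φ k),
      B.gt_eq rfl, ρ_eq M (J.j_M φ k), h]

theorem β_tr {X Y : T.C} (φ : X ⟶ Y) (q : B.P.V X) (ξ : (pt.cs M (ix.obj X)).Tot.V) :
    E.β J Y (B.P.gt φ q) (((pt.totM M).ρ (ix.map φ)).f ξ) = L.tr F φ (E.β J X q ξ) :=
  E.β_tr' J φ q ξ _ (pt.totM_ρ M (ix.map φ) ξ)

theorem β_nat (E' : EV B M' F') (f : (otF T).P F F' 0) (z : DM.Coch M M' 0)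
    (h : ∀ X q η, E'.e X q (z.f X η) = OT.co f X (E.e X q η)) (X : T.C) (q : B.P.V X)
    (ξ : (pt.cs M (ix.obj X)).Tot.V) (ξ' : (pt.cs M' (ix.obj X)).Tot.V)
    (h' : ∀ k, ξ' k = z.f _ (ξ k)) : E'.β J X q ξ' = L.tc f X (E.β J X q ξ) := funext fun k => by
  rw [MD.tc_apply, sz_zero, one_pow, one_smul, β_apply, β_apply, ← h, z.tr, h']

/-- The evaluation map over `X`. -/
def c (X : T.C) : GD.Hom ((B.barH (pt.totM M)).gau.F X).M ((L.mid F).F X).M :=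
  (B.ρ X).evD (bT T X) (pt.totG M (ix.obj X)) (M := (L.cs F X).Tot) (E.β J X) (E.β_act J X)
    (E.β_d J X) (E.β_gr J X)

theorem c_as (X : T.C) (q : B.P.V X) (x : (UU ((pt.totM M).M (ix.obj X))).V) :
    (E.c J X).f (B.as (pt.totM M) X (q ⊗ₜ[ℂ] x)) = E.β J X q (P286EK.U0.p0 _ _ x) :=
  (B.ρ X).evD_asc (bT T X) (pt.totG M (ix.obj X)) (M := (L.cs F X).Tot) (E.β J X) (E.β_act J X)
    (E.β_d J X) (E.β_gr J X) q x

theorem c_smul (X : T.C) (w : Om ℂ (T.R X)) (z : (B.barH (pt.totM M)).V X) :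
    (E.c J X).f (w • z) = L.act F X w ((E.c J X).f z) := by
  induction z using B.as_ind with
  | zero => exact (congrArg _ (smul_zero w)).trans ((map_zero _).trans
      ((congrArg _ (map_zero _)).trans (map_zero _)).symm)
  | tmul q x =>
    refine (congrArg (E.c J X).f ((B.as (pt.totM M) X).map_smul w _).symm).trans ?_
    exact (E.c_as J X (w • q) x).trans ((E.β_smul J X w q _).trans
      (congrArg _ (E.c_as J X q x).symm))
  | add x y hx hy =>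
    exact (congrArg _ (smul_add w x y)).trans ((map_add _ _ _).trans ((congrArg₂ (· + ·) hx hy).trans
      ((congrArg _ (map_add (E.c J X).f x y)).trans (map_add _ _ _)).symm))

theorem c_tr {X Y : T.C} (φ : X ⟶ Y) (z : (B.barH (pt.totM M)).V X) :
    (E.c J Y).f ((B.barH (pt.totM M)).gt φ z) = L.tr F φ ((E.c J X).f z) := by
  induction z using B.as_ind with
  | zero => exact (congrArg _ (map_zero _)).trans ((map_zero _).trans
      ((congrArg _ (map_zero _)).trans (map_zero _)).symm)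
  | tmul q x =>
    refine (congrArg (E.c J Y).f (B.as_gt (pt.totM M) φ q x)).trans ((E.c_as J Y _ _).trans ?_)
    exact (congrArg _ (P286EK.U0.p0_mp _ _ x)).trans ((E.β_tr J φ q _).trans
      (congrArg _ (E.c_as J X q x).symm))
  | add x y hx hy =>
    exact (congrArg _ (map_add _ x y)).trans ((map_add _ _ _).trans ((congrArg₂ (· + ·) hx hy).trans
      ((congrArg _ (map_add (E.c J X).f x y)).trans (map_add _ _ _)).symm))

/-- The evaluation map as a closed morphism. -/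
def cZ : zo (C := otc T) (B.barH (pt.totM M)).gau ⟶ zo (C := otc T) (L.mid F) :=
  otMk (E.c J) (E.c_smul J) (E.c_tr J)

theorem hom_cZ (X : T.C) : (otF T).hom (E.cZ J) X = E.c J X := rfl

/-- Naturality of the evaluation map. -/
theorem c_nat (E' : EV B M' F') (f : (otF T).P F F' 0) (z : DM.Coch M M' 0)
    (h : ∀ X q η, E'.e X q (z.f X η) = OT.co f X (E.e X q η)) (X : T.C)
    (y : (B.barH (pt.totM M)).V X) :
    (E'.c J X).f ((HG.gauC (B.bcL _ _ 0 (pt.totC 0 z))).1 X y) = L.tc f X ((E.c J X).f y) := by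
  induction y using B.as_ind with
  | zero => exact (congrArg _ (map_zero _)).trans ((map_zero _).trans
      ((congrArg _ (map_zero _)).trans (map_zero _)).symm)
  | tmul q x =>
    refine (congrArg (E'.c J X).f (B.as_bc (pt.totC 0 z) q x)).trans ((E'.c_as J X _ _).trans ?_)
    exact (congrArg₂ (fun a b => E'.β J X a b)
      (P286EK.ssz_zero (E := ((B.ρ X).dr (bT T X)).toSGD) q) (P286EK.U0.p0_mp _ _ x)).trans
      ((E.β_nat J E' f z h X q _ _ (pt.totC_zero z _ _)).trans (congrArg _ (E.c_as J X q x).symm))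
  | add x y hx hy =>
    exact (congrArg _ (map_add _ x y)).trans ((map_add _ _ _).trans ((congrArg₂ (· + ·) hx hy).trans
      ((congrArg _ (map_add (E.c J X).f x y)).trans (map_add _ _ _)).symm))

theorem g_β (X : T.C) (q : B.P.V X) (ξ : (pt.cs M (ix.obj X)).Tot.V) :
    (L.g F X).f (E.β J X q ξ) = E.e X q ((M.ρ (J.j X 0 ≫ (L.con X).r)).f (ξ 0)) := by
  rw [MD.g_apply, β_apply, ← E.e_t, B.gt_eq (L.u_r X), HG.gt_id, Nat.cast_zero, B.sz_zero,
    M.ρ_comp]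

/-- The fold of the evaluation map. -/
theorem g_c (X : T.C) (q : B.P.V X) (x : (UU ((pt.totM M).M (ix.obj X))).V) :
    (L.g F X).f ((E.c J X).f (B.as (pt.totM M) X (q ⊗ₜ[ℂ] x))) =
      E.e X q ((M.ρ (J.j X 0 ≫ (L.con X).r)).f
        ((P286EK.U0.p0 _ _ x : (pt.cs M (ix.obj X)).Tot.V) 0)) :=
  (congrArg _ (E.c_as J X q x)).trans (E.g_β J X q _)

end EV

end

end Vale.Agent.P286EX
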