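import Vale.Agent.P286EX9.Ctr
import Vale.Agent.P286EX7.Hm

/-!
# The total of the values of a twisted family on the objects under a test object
-/

set_option linter.all false

namespace Vale.Agent.P286EX

open CategoryTheory Vale.Agent.P286 Vale.Agent.P286.St Vale.Agent.P286.H847
  Vale.Agent.P286.H353 Vale.Agent.P286.H710 Vale.Agent.P286.H697
open Vale.Agent.P286.H761 (CS CO ConF sz sz_smul sz_zero sz_add sz_succ sz_mul_self)

noncomputable section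

/-- A module over the forms given by an action. -/
abbrev Mid.ofAct {A : Type} [CommRing A] [Algebra ℂ A] (M : GD)
    (ρ : Om ℂ A →+* Module.End ℂ M.V) (hc : ∀ (c : ℂ) w x, ρ (c • w) x = c • ρ w x)
    (leib : ∀ w x, M.d (ρ w x) = ρ (Om.d w) x + ρ (Om.sg w) (M.d x))
    (gr : ∀ (p : ℕ) (m : ℤ) w x, w ∈ Om.gr ℂ A p → x ∈ M.gr m → ρ w x ∈ M.gr (m + p)) : OmM A :=
  letI : Module (Om ℂ A) M.V := Module.compHom M.V ρ
  letI : Module A M.V := Module.compHom M.V (algebraMap A (Om ℂ A))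
  { M := M
    tow := ⟨hc⟩
    tw := ⟨fun c a x => by
      change ρ (algebraMap A (Om ℂ A) (c • a)) x = c • ρ (algebraMap A (Om ℂ A) a) x
      rw [← hc, Algebra.smul_def, map_mul, Algebra.smul_def,
        IsScalarTower.algebraMap_apply ℂ A (Om ℂ A)]⟩
    tw' := ⟨fun a w x => by
      change ρ (a • w) x = ρ (algebraMap A (Om ℂ A) a) (ρ w x)
      rw [Algebra.smul_def, map_mul]
      rfl⟩
    leib := leib
    smul_gr := gr }

theorem Mid.np_smul {M : Type} [AddCommGroup M] [Module ℂ M] (k : ℕ) (x : M) :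
    ((k : ℤ).negOnePow : ℤ) • x = (-1 : ℂ) ^ k • x := by
  rw [Int.coe_negOnePow_natCast, ← Int.cast_smul_eq_zsmul ℂ]
  simp

theorem Mid.sgz_succ {A : Type} [CommRing A] [Algebra ℂ A] (k : ℕ) (w : Om ℂ A) :
    Om.sgz ((k + 1 : ℕ) : ℤ) (Om.sg w) = Om.sgz (k : ℤ) w := by
  rw [Om.sgz_sg, show (((k + 1 : ℕ) : ℤ) + 1) = k + 2 by push_cast; ring, ← Om.sgz_sgz,
    Om.sgz_even (n := 2) (by decide)]

variable {T : TSite}

theorem eta_of_dl {X Y : T.C} {φ : X ⟶ Y} (h : T.dl φ = 1) : eta T φ = 0 := by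
  have h1 : (Om.dd (1 : T.R Y) : Om ℂ (T.R Y)) = 0 := by
    rw [Om.dd, Derivation.map_one_eq_zero, map_zero]
  rw [eta, h, h1, smul_zero]

theorem eta_pb {X Y X' Y' : T.C} {φ : X ⟶ Y} {ψ : X' ⟶ Y'} (f : T.R Y →ₐ[ℂ] T.R Y')
    (hu : IsUnit (T.dl φ)) (h : T.dl ψ = f (T.dl φ)) : eta T ψ = Om.pb f (eta T φ) := by
  obtain ⟨a, ha⟩ := hu
  have h1 : Ring.inverse (f (a : T.R Y)) = f (Ring.inverse (a : T.R Y)) := by
    rw [Ring.inverse_unit]
    exact Ring.inverse_unit (Units.map (f : T.R Y →* T.R Y') a)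
  rw [eta, eta, h, ← ha, h1, Om.pb_smul, Om.pb_dd, map_mul, AlgHom.commutes]

/-- The transition map along an arrow without twist. -/
def OT.th (F : OT T) {X Y : T.C} (φ : X ⟶ Y) (h : T.dl φ = 1) : GD.Hom (F.F X).M (F.F Y).M where
  f := F.t φ
  comm x := by rw [F.t_d, eta_of_dl h, zero_smul, sub_zero]
  deg := F.t_gr φ

theorem OT.th_f (F : OT T) {X Y : T.C} (φ : X ⟶ Y) (h : T.dl φ = 1) (x : (F.F X).M.V) :
    (F.th φ h).f x = F.t φ x := rfl

theorem OT.t_eq (F : OT T) {X Y Z Z' : T.C} {φ : X ⟶ Z} {ψ : Z ⟶ Y} {φ' : X ⟶ Z'} {ψ' : Z' ⟶ Y}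
    (h : φ ≫ ψ = φ' ≫ ψ') (x : (F.F X).M.V) : F.t ψ (F.t φ x) = F.t ψ' (F.t φ' x) := by
  rw [← F.t_comp, ← F.t_comp, h]

theorem OT.t_eq' (F : OT T) {X Y Z : T.C} {φ : X ⟶ Z} {ψ : Z ⟶ Y} {χ : X ⟶ Y}
    (h : φ ≫ ψ = χ) (x : (F.F X).M.V) : F.t ψ (F.t φ x) = F.t χ x := by
  rw [← F.t_comp, h]

/-- The component of a cochain. -/
def OT.co {F F' : OT T} {n : ℤ} (u : (otF T).P F F' n) (X : T.C) :
    (F.F X).M.V →ₗ[ℂ] (F'.F X).M.V := u.1 X

theorem OT.co_deg {F F' : OT T} {n : ℤ} (u : (otF T).P F F' n) (X : T.C) (m : ℤ)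
    (x : (F.F X).M.V) (h : x ∈ (F.F X).M.gr m) : OT.co u X x ∈ (F'.F X).M.gr (m + n) :=
  OT.IsCo.deg u.2 X m x h

theorem OT.co_smul {F F' : OT T} {n : ℤ} (u : (otF T).P F F' n) (X : T.C) (w : Om ℂ (T.R X))
    (x : (F.F X).M.V) : OT.co u X (w • x) = Om.sgz n w • OT.co u X x := OT.IsCo.smul u.2 X w x

theorem OT.co_tr {F F' : OT T} {n : ℤ} (u : (otF T).P F F' n) {X Y : T.C} (φ : X ⟶ Y)
    (x : (F.F X).M.V) : OT.co u Y (F.t φ x) = F'.t φ (OT.co u X x) := OT.IsCo.tr u.2 φ x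

theorem Good.pb_eq (g : Good T) {X Y Z : T.C} {φ : X ⟶ Z} {ψ : Z ⟶ Y} {χ : X ⟶ Y}
    (h : φ ≫ ψ = χ) (w : Om ℂ (T.R X)) : Om.pb (T.f ψ) (Om.pb (T.f φ) w) = Om.pb (T.f χ) w := by
  rw [Om.pb_pb, ← h, g.fcomp]

theorem Good.pb_id (g : Good T) (X : T.C) (w : Om ℂ (T.R X)) : Om.pb (T.f (𝟙 X)) w = w := by
  rw [g.fid, Om.pb_id]

/-- Contractible semi-cosimplicial objects under the test objects. -/
structure MD (T : TSite) : Type 1 where
  good : Good T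
  U : T.C → CO T.C
  con : ∀ X, ConF (U X) X
  u : ∀ X k, X ⟶ (U X).P k
  M : ∀ {X Y : T.C}, (X ⟶ Y) → ∀ k, ((U X).P k ⟶ (U Y).P k)
  M_fc : ∀ {X Y : T.C} (φ : X ⟶ Y) k i, i ≤ k + 1 →
    (U X).fc k i ≫ M φ (k + 1) = M φ k ≫ (U Y).fc k i
  M_id : ∀ X k, M (𝟙 X) k = 𝟙 _
  M_comp : ∀ {X Y Z : T.C} (φ : X ⟶ Y) (ψ : Y ⟶ Z) k, M (φ ≫ ψ) k = M φ k ≫ M ψ k
  u_zero : ∀ X, u X 0 = (con X).e
  u_fc : ∀ X k i, i ≤ k + 1 → u X k ≫ (U X).fc k i = u X (k + 1)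
  u_s : ∀ X k, u X (k + 1) ≫ (con X).s k = u X k
  u_M : ∀ {X Y : T.C} (φ : X ⟶ Y) k, u X k ≫ M φ k = φ ≫ u Y k
  dl_u : ∀ X k, T.dl (u X k) = 1
  dl_fc : ∀ X k i, T.dl ((U X).fc k i) = 1
  dl_s : ∀ X k, T.dl ((con X).s k) = 1
  dl_r : ∀ X, T.dl (con X).r = 1

namespace MD

variable (B : MD T) (F F' F'' : OT T)

theorem u_r (X : T.C) : B.u X 0 ≫ (B.con X).r = 𝟙 X := by rw [B.u_zero]; exact (B.con X).e_r

theorem eta_M {X Y : T.C} (φ : X ⟶ Y) (k : ℕ) :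
    eta T (B.M φ k) = Om.pb (T.f (B.u Y k)) (eta T φ) := by
  refine eta_pb _ (B.good.unit φ) ?_
  have h := congrArg T.dl (B.u_M φ k)
  rwa [B.good.dl_comp, B.good.dl_comp, B.dl_u, B.dl_u, map_one, one_mul, mul_one] at h

/-- The values on the objects under `X`. -/
abbrev cs (X : T.C) : CS where
  X k := (F.F ((B.U X).P k)).M
  fc k i := F.th ((B.U X).fc k i) (B.dl_fc X k i)
  rel k i j hi hj x := F.t_eq ((B.U X).rel k i j hi hj) x

/-- The pull-back of forms with the sign of the level. -/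
def ρ (X : T.C) (k : ℕ) : Om ℂ (T.R X) →+* Om ℂ (T.R ((B.U X).P k)) :=
  (Om.pb (T.f (B.u X k))).comp (Om.sgz (k : ℤ)).toRingHom

theorem ρ_apply (X : T.C) (k : ℕ) (w : Om ℂ (T.R X)) :
    B.ρ X k w = Om.pb (T.f (B.u X k)) (Om.sgz (k : ℤ) w) := rfl

theorem ρ_csmul (X : T.C) (k : ℕ) (c : ℂ) (w : Om ℂ (T.R X)) :
    B.ρ X k (c • w) = c • B.ρ X k w := by
  rw [ρ_apply, ρ_apply, ← algebraMap_smul (T.R X) c w, map_smul, algebraMap_smul, Om.pb_csmul]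

theorem d_ρ (X : T.C) (k : ℕ) (w : Om ℂ (T.R X)) :
    (-1 : ℂ) ^ k • Om.d (B.ρ X k w) = B.ρ X k (Om.d w) := by
  rw [ρ_apply, ρ_apply, ← Om.pb_d, Om.d_sgz, map_zsmul, ← Mid.np_smul, smul_smul, np_sq, one_smul]

theorem sg_ρ (X : T.C) (k : ℕ) (w : Om ℂ (T.R X)) : Om.sg (B.ρ X k w) = B.ρ X k (Om.sg w) := by
  rw [ρ_apply, ρ_apply, ← Om.pb_sg, Om.sg_sgz, Om.sgz_sg]

theorem sgz_ρ (X : T.C) (k : ℕ) (n : ℤ) (w : Om ℂ (T.R X)) :
    Om.sgz n (B.ρ X k w) = B.ρ X k (Om.sgz n w) := by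
  rw [ρ_apply, ρ_apply, ← Om.pb_sgz, Om.sgz_sgz, Om.sgz_sgz, add_comm]

theorem fc_ρ (X : T.C) (k i : ℕ) (h : i ≤ k + 1) (w : Om ℂ (T.R X)) :
    Om.pb (T.f ((B.U X).fc k i)) (B.ρ X k w) = B.ρ X (k + 1) (Om.sg w) := by
  rw [ρ_apply, ρ_apply, B.good.pb_eq (B.u_fc X k i h), Mid.sgz_succ]

theorem s_ρ (X : T.C) (k : ℕ) (w : Om ℂ (T.R X)) :
    Om.pb (T.f ((B.con X).s k)) (B.ρ X (k + 1) w) = B.ρ X k (Om.sg w) := by
  rw [ρ_apply, ρ_apply, B.good.pb_eq (B.u_s X k), Om.sgz_sg]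
  rfl

theorem M_ρ {X Y : T.C} (φ : X ⟶ Y) (k : ℕ) (w : Om ℂ (T.R X)) :
    Om.pb (T.f (B.M φ k)) (B.ρ X k w) = B.ρ Y k (Om.pb (T.f φ) w) := by
  rw [ρ_apply, ρ_apply, B.good.pb_eq (B.u_M φ k), ← Om.pb_sgz, B.good.pb_eq rfl]

theorem ρ_zero (X : T.C) (w : Om ℂ (T.R X)) : B.ρ X 0 w = Om.pb (T.f (B.u X 0)) w := by
  rw [ρ_apply, Nat.cast_zero, Om.sgz_zero]

theorem dl_smul (X : T.C) (k : ℕ) (w : Om ℂ (T.R X)) (x : (F.F ((B.U X).P k)).M.V) :
    (B.cs F X).dl k (B.ρ X k w • x) = B.ρ X (k + 1) (Om.sg w) • (B.cs F X).dl k x := by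
  rw [CS.dl_apply, CS.dl_apply, Finset.smul_sum]
  refine Finset.sum_congr rfl fun i hi => ?_
  rw [Finset.mem_range] at hi
  rw [smul_comm, OT.th_f, OT.th_f, F.t_smul, B.fc_ρ X k i (by omega)]

/-- The action of the forms on the total. -/
def act (X : T.C) : Om ℂ (T.R X) →+* Module.End ℂ (B.cs F X).Tot.V where
  toFun w :=
    { toFun := fun v k => B.ρ X k w • v k
      map_add' := fun v v' => funext fun k => smul_add _ _ _
      map_smul' := fun c v => funext fun k => smul_comm _ c (v k) }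
  map_one' := LinearMap.ext fun v => funext fun k => by
    change B.ρ X k 1 • v k = v k
    rw [map_one, one_smul]
  map_mul' w w' := LinearMap.ext fun v => funext fun k => by
    change B.ρ X k (w * w') • v k = B.ρ X k w • B.ρ X k w' • v k
    rw [map_mul, mul_smul]
  map_zero' := LinearMap.ext fun v => funext fun k => by
    change B.ρ X k 0 • v k = 0
    rw [map_zero, zero_smul]
  map_add' w w' := LinearMap.ext fun v => funext fun k => by
    change B.ρ X k (w + w') • v k = B.ρ X k w • v k + B.ρ X k w' • v k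
    rw [map_add, add_smul]

theorem act_apply (X : T.C) (w : Om ℂ (T.R X)) (v : (B.cs F X).Tot.V) (k : ℕ) :
    B.act F X w v k = B.ρ X k w • v k := rfl

theorem act_leib (X : T.C) (w : Om ℂ (T.R X)) (v : (B.cs F X).Tot.V) :
    (B.cs F X).D (B.act F X w v) =
      B.act F X (Om.d w) v + B.act F X (Om.sg w) ((B.cs F X).D v) := by
  funext k
  match k with
  | 0 =>
    change (F.F _).M.d (B.ρ X 0 w • v 0) = B.ρ X 0 (Om.d w) • v 0 + B.ρ X 0 (Om.sg w) • (F.F _).M.d (v 0)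
    rw [(F.F _).leib, sg_ρ, ← d_ρ, pow_zero, one_smul]
  | (k + 1) =>
    change (-1 : ℂ) ^ (k + 1) • (F.F _).M.d (B.ρ X (k + 1) w • v (k + 1)) +
      (B.cs F X).dl k (B.ρ X k w • v k) = B.ρ X (k + 1) (Om.d w) • v (k + 1) +
      B.ρ X (k + 1) (Om.sg w) • ((-1 : ℂ) ^ (k + 1) • (F.F _).M.d (v (k + 1)) +
        (B.cs F X).dl k (v k))
    rw [(F.F _).leib, sg_ρ, ← d_ρ, dl_smul, smul_add, smul_add, smul_assoc,
      smul_comm (B.ρ X (k + 1) (Om.sg w)), add_assoc]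

/-- The total as a module over the forms of `X`. -/
def ob (X : T.C) : OmM (T.R X) :=
  Mid.ofAct (B.cs F X).Tot (B.act F X)
    (fun c w v => funext fun k => by
      change B.ρ X k (c • w) • v k = c • B.ρ X k w • v k
      rw [ρ_csmul, smul_assoc])
    (B.act_leib F X)
    (fun p m w v hw hv k => by
      have h := (F.F _).smul_gr p _ _ _ (Om.pb_mem (T.f (B.u X k)) (Om.sgz_mem (k : ℤ) hw)) (hv k)
      rwa [show m - (k : ℤ) + p = m + p - k by ring] at h)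

theorem ob_M (X : T.C) : (B.ob F X).M = (B.cs F X).Tot := rfl

theorem smul_apply (X : T.C) (w : Om ℂ (T.R X)) (v : (B.ob F X).M.V) (k : ℕ) :
    (w • v : (B.ob F X).M.V) k = B.ρ X k w • v k := rfl

/-- The transition maps. -/
def tr {X Y : T.C} (φ : X ⟶ Y) : (B.cs F X).Tot.V →ₗ[ℂ] (B.cs F Y).Tot.V :=
  LinearMap.pi fun k => (F.t (B.M φ k)).comp (LinearMap.proj k)

theorem tr_apply {X Y : T.C} (φ : X ⟶ Y) (v : (B.cs F X).Tot.V) (k : ℕ) :
    B.tr F φ v k = F.t (B.M φ k) (v k) := rfl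

theorem tr_d {X Y : T.C} (φ : X ⟶ Y) (v : (B.cs F X).Tot.V) :
    (B.cs F Y).D (B.tr F φ v) = B.tr F φ ((B.cs F X).D v) - B.act F Y (eta T φ) (B.tr F φ v) := by
  have he : ∀ (k : ℕ) (y : (F.F ((B.U Y).P k)).M.V),
      B.ρ Y k (eta T φ) • y = (-1 : ℂ) ^ k • eta T (B.M φ k) • y := fun k y => by
    rw [ρ_apply, sgz_eta, map_zsmul, eta_M, Mid.np_smul, smul_assoc]
  funext k
  match k with
  | 0 =>
    change (F.F _).M.d (F.t (B.M φ 0) (v 0)) = F.t (B.M φ 0) ((F.F _).M.d (v 0)) -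
      B.ρ Y 0 (eta T φ) • F.t (B.M φ 0) (v 0)
    rw [F.t_d, he, pow_zero, one_smul]
  | (k + 1) =>
    have h : F.t (B.M φ (k + 1)) ((B.cs F X).dl k (v k)) =
        (B.cs F Y).dl k (F.t (B.M φ k) (v k)) :=
      CS.FcComm.dl (X := B.cs F X) (Y := B.cs F Y) (f := fun k => F.t (B.M φ k))
        (fun k i hi x => F.t_eq (B.M_fc φ k i hi) x) k (v k)
    change (-1 : ℂ) ^ (k + 1) • (F.F _).M.d (F.t (B.M φ (k + 1)) (v (k + 1))) +
      (B.cs F Y).dl k (F.t (B.M φ k) (v k)) = F.t (B.M φ (k + 1)) ((-1 : ℂ) ^ (k + 1) •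
        (F.F _).M.d (v (k + 1)) + (B.cs F X).dl k (v k)) -
      B.ρ Y (k + 1) (eta T φ) • F.t (B.M φ (k + 1)) (v (k + 1))
    rw [F.t_d, he, map_add, map_smul, h, smul_sub]
    abel

/-- The twisted family of the totals. -/
def mid : OT T where
  F := B.ob F
  t φ := B.tr F φ
  t_gr φ m v hv k := F.t_gr _ _ _ (hv k)
  t_d φ v := B.tr_d F φ v
  t_smul {X Y} φ w v := funext fun k => by
    change F.t (B.M φ k) (B.ρ X k w • v k) = B.ρ Y k (Om.pb (T.f φ) w) • F.t (B.M φ k) (v k)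
    rw [F.t_smul, M_ρ]
  t_id X v := funext fun k => by
    change F.t (B.M (𝟙 X) k) (v k) = v k
    rw [B.M_id, F.t_id]
  t_comp φ ψ v := funext fun k => (F.t_eq' (B.M_comp φ ψ k).symm (v k)).symm

theorem mid_F (X : T.C) : (B.mid F).F X = B.ob F X := rfl

theorem mid_t {X Y : T.C} (φ : X ⟶ Y) (v : ((B.mid F).F X).M.V) (k : ℕ) :
    (B.mid F).t φ v k = F.t (B.M φ k) (v k) := rfl

theorem mid_smul (X : T.C) (w : Om ℂ (T.R X)) (v : ((B.mid F).F X).M.V) (k : ℕ) :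
    (w • v : ((B.mid F).F X).M.V) k = B.ρ X k w • v k := rfl

variable {F F' F''}

/-- The total of a cochain, at one object. -/
def tc {n : ℤ} (u : (otF T).P F F' n) (X : T.C) : (B.cs F X).Tot.V →ₗ[ℂ] (B.cs F' X).Tot.V :=
  CS.totLin (X := B.cs F X) (Y := B.cs F' X) (sz n) fun k => OT.co u ((B.U X).P k)

theorem tc_apply {n : ℤ} (u : (otF T).P F F' n) (X : T.C) (v : (B.cs F X).Tot.V) (k : ℕ) :
    B.tc u X v k = sz n ^ k • OT.co u ((B.U X).P k) (v k) := rfl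

theorem tc_act {n : ℤ} (u : (otF T).P F F' n) (X : T.C) (w : Om ℂ (T.R X))
    (v : (B.cs F X).Tot.V) : B.tc u X (B.act F X w v) = B.act F' X (Om.sgz n w) (B.tc u X v) :=
  funext fun k => by rw [tc_apply, act_apply, act_apply, tc_apply, OT.co_smul, sgz_ρ, smul_comm]

theorem tc_tr {n : ℤ} (u : (otF T).P F F' n) {X Y : T.C} (φ : X ⟶ Y) (v : (B.cs F X).Tot.V) :
    B.tc u Y (B.tr F φ v) = B.tr F' φ (B.tc u X v) :=
  funext fun k => by rw [tc_apply, tr_apply, tr_apply, tc_apply, OT.co_tr, map_smul]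

/-- The total of a cochain. -/
def midC {n : ℤ} (u : (otF T).P F F' n) : (otF T).P (B.mid F) (B.mid F') n :=
  ⟨B.tc u, (⟨fun X m v hv => CS.totLin_gr (X := B.cs F X) (Y := B.cs F' X)
        (fun k m x hx => OT.co_deg u _ m x hx) m v hv, B.tc_act u, B.tc_tr u⟩ :
      OT.IsCo (B.mid F) (B.mid F') n _)⟩

theorem midC_apply {n : ℤ} (u : (otF T).P F F' n) (X : T.C) (v : (B.cs F X).Tot.V) :
    (B.midC u).1 X v = B.tc u X v := rfl

/-- The linear map on cochains. -/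
def midL (F F' : OT T) (n : ℤ) : (otF T).P F F' n →ₗ[ℂ] (otF T).P (B.mid F) (B.mid F') n where
  toFun := B.midC
  map_add' u u' := (otF T).ext' fun X v =>
    CS.totLin_add (X := B.cs F X) (Y := B.cs F' X) _ (fun k => OT.co u _) (fun k => OT.co u' _) v
  map_smul' c u := (otF T).ext' fun X v =>
    CS.totLin_smul (X := B.cs F X) (Y := B.cs F' X) _ c (fun k => OT.co u _) v

/-- The DG functor of the totals. -/
def midD : DGF (otc T) (otc T) where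
  obj F := B.mid F
  map {F F'} n := B.midL F F' n
  map_one F := (otF T).ext' fun X (v : (B.cs F X).Tot.V) => funext fun k => by
    change sz 0 ^ k • v k = v k
    rw [sz_zero, one_pow, one_smul]
  map_comp {F F' F'' m n p} h u u' := (otF T).ext' fun X (v : (B.cs F X).Tot.V) => funext fun k => by
    change sz p ^ k • OT.co u' _ (OT.co u _ (v k)) =
      sz n ^ k • OT.co u' ((B.U X).P k) (sz m ^ k • OT.co u _ (v k))
    rw [map_smul, smul_smul, ← mul_pow, ← h, sz_add, mul_comm]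
  map_d {F F'} m n u := by
    by_cases h : m + 1 = n
    · subst h
      refine (otF T).ext' fun X v => Eq.trans ?_ ((otF T).dif_f rfl (B.midC u) X v).symm
      have h1 := CS.totLin_delta (X := B.cs F X) (Y := B.cs F' X) (sz_mul_self m)
        (f := fun k => OT.co u ((B.U X).P k)) (fun k i _ x => OT.co_tr u ((B.U X).fc k i) x) v
      rw [sz_smul, ← sz_succ] at h1
      refine Eq.trans (CS.totLin_congr (X := B.cs F X) (Y := B.cs F' X) (fun k x => ?_) v) h1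
      exact ((otF T).dif_f rfl u _ x).trans (congrArg (_ - ·) (sz_smul m _).symm)
    · exact (congrArg (B.midL F F' n) ((otF T).dif_ne h u)).trans
        ((map_zero (B.midL F F' n)).trans ((otF T).dif_ne h (B.midL F F' m u)).symm)

theorem midD_obj (F : OT T) : B.midD.obj F = B.mid F := rfl

theorem midD_map {n : ℤ} (u : (otF T).P F F' n) : B.midD.map n u = B.midC u := rfl

end MD

end

end Vale.Agent.P286EX
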