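import Vale.Agent.P286EXC.Mid
import Vale.Agent.P286EX4.JT
import Vale.Agent.P286EC.Ad

/-!
# The augmentation of the total is a homotopy equivalence over the forms
-/

set_option linter.all false

namespace Vale.Agent.P286EX

open CategoryTheory Vale.Agent.P286 Vale.Agent.P286.St Vale.Agent.P286.H847
  Vale.Agent.P286.H353 Vale.Agent.P286.H710 Vale.Agent.P286.H697
open Vale.Agent.P286.H761 (CS CO ConF sz sz_smul sz_zero sz_add sz_succ sz_mul_self)

noncomputable section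

variable {T : TSite}

/-- A natural transformation with values in twisted families, given by its components. -/
def otN {C : DGC.{1, 0}} {Φ Ψ : DGF C (otc T)}
    (η : ∀ N : C.Obj, zo (C := otc T) (Φ.obj N) ⟶ zo (C := otc T) (Ψ.obj N))
    (nat : ∀ {N N' : C.Obj} (f : C.Hom N N' 0), C.d 0 1 f = 0 → ∀ X x,
      ((otF T).hom (η N') X).f (OT.co (Φ.map 0 f) X x) =
        OT.co (Ψ.map 0 f) X (((otF T).hom (η N) X).f x)) : Φ.z0 ⟶ Ψ.z0 :=
  natT (fun N => zf (η N)) (fun N => zf_cl (η N)) fun f hf => (otF T).ext' (nat f hf)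

/-- A natural transformation of functors on twisted families, given by its components. -/
def otN' {Φ Ψ : DGF (otc T) (otc T)}
    (η : ∀ N : OT T, zo (C := otc T) (Φ.obj N) ⟶ zo (C := otc T) (Ψ.obj N))
    (nat : ∀ {N N' : OT T} (f : (otF T).P N N' 0), (otF T).dif 0 1 f = 0 → ∀ X x,
      ((otF T).hom (η N') X).f (OT.co (Φ.map 0 f) X x) =
        OT.co (Ψ.map 0 f) X (((otF T).hom (η N) X).f x)) : Φ.z0 ⟶ Ψ.z0 :=
  natT (fun N => zf (η N)) (fun N => zf_cl (η N)) fun f hf => (otF T).ext' (nat f hf)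

/-- A closed morphism of twisted families given by its components. -/
def otMk {F F' : OT T} (u : ∀ X, GD.Hom (F.F X).M (F'.F X).M)
    (hs : ∀ X (w : Om ℂ (T.R X)) x, (u X).f (w • x) = w • (u X).f x)
    (ht : ∀ {X Y : T.C} (φ : X ⟶ Y) x, (u Y).f (F.t φ x) = F'.t φ ((u X).f x)) :
    zo (C := otc T) F ⟶ zo (C := otc T) F' :=
  (otF T).mk0 u (⟨fun X m x h => by rw [add_zero]; exact (u X).deg m x h,
    fun X w x => by rw [Om.sgz_zero]; exact hs X w x, ht⟩ : OT.IsCo F F' 0 _)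

theorem hom_otMk {F F' : OT T} (u : ∀ X, GD.Hom (F.F X).M (F'.F X).M)
    (hs : ∀ X (w : Om ℂ (T.R X)) x, (u X).f (w • x) = w • (u X).f x)
    (ht : ∀ {X Y : T.C} (φ : X ⟶ Y) x, (u Y).f (F.t φ x) = F'.t φ ((u X).f x)) (X : T.C) :
    (otF T).hom (otMk u hs ht) X = u X := rfl

namespace MD

variable (B : MD T) (F : OT T)

theorem dl_e (X : T.C) : T.dl (B.con X).e = 1 := B.u_zero X ▸ B.dl_u X 0

/-- The augmentation. -/
def au (X : T.C) : CS.Aug (B.cs F X) (F.F X).M :=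
  ⟨F.th (B.con X).e (B.dl_e X), fun y => F.t_eq (B.con X).aug y⟩

/-- The augmentation as a map to the total. -/
def m (X : T.C) : GD.Hom (F.F X).M ((B.mid F).F X).M := (B.au F X).tot

/-- The fold on level zero. -/
def g (X : T.C) : GD.Hom ((B.mid F).F X).M (F.F X).M :=
  CS.fromZero (X := B.cs F X) (F.th (B.con X).r (B.dl_r X))

/-- The homotopy. -/
def H (X : T.C) : ((B.mid F).F X).M.V →ₗ[ℂ] ((B.mid F).F X).M.V :=
  CS.shft (X := B.cs F X) (fun _ => 1) fun k => F.th ((B.con X).s k) (B.dl_s X k)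

theorem m_zero (X : T.C) (y : (F.F X).M.V) : (B.m F X).f y 0 = F.t (B.u X 0) y :=
  ((B.au F X).tot_zero y).trans (by rw [B.u_zero]; rfl)

theorem m_succ (X : T.C) (y : (F.F X).M.V) (k : ℕ) : (B.m F X).f y (k + 1) = 0 :=
  (B.au F X).tot_succ y k

theorem g_apply (X : T.C) (v : (B.cs F X).Tot.V) : (B.g F X).f v = F.t (B.con X).r (v 0) := rfl

theorem H_apply (X : T.C) (v : (B.cs F X).Tot.V) (k : ℕ) :
    B.H F X v k = F.t ((B.con X).s k) (v (k + 1)) := one_smul ℂ _

theorem g_m (X : T.C) (y : (F.F X).M.V) : (B.g F X).f ((B.m F X).f y) = y :=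
  (congrArg (F.t (B.con X).r) (B.m_zero F X y)).trans ((F.t_eq' (B.u_r X) y).trans (F.t_id X y))

theorem H_gr (X : T.C) (n : ℤ) (v : ((B.mid F).F X).M.V) (hv : v ∈ ((B.mid F).F X).M.gr n) :
    B.H F X v ∈ ((B.mid F).F X).M.gr (n - 1) := CS.shft_gr (X := B.cs F X) _ _ n v hv

/-- The homotopy formula `d H + H d = 1 - m g`. -/
theorem H_eq (X : T.C) (v : ((B.mid F).F X).M.V) :
    ((B.mid F).F X).M.d (B.H F X v) + B.H F X (((B.mid F).F X).M.d v) =
      v - (B.m F X).f ((B.g F X).f v) :=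
  Cos.htpy_first (B.au F X) (fun k => F.th ((B.con X).s k) (B.dl_s X k))
    (F.th (B.con X).r (B.dl_r X)) (fun x => F.t_eq (B.con X).one x)
    (fun k x => (F.t_eq' ((B.con X).first k) x).trans (F.t_id _ x))
    (fun k i hi x => F.t_eq ((B.con X).rest k i hi) x) v

theorem m_smul (X : T.C) (w : Om ℂ (T.R X)) (y : (F.F X).M.V) :
    (B.m F X).f (w • y) = w • (B.m F X).f y := by
  funext k
  match k with
  | 0 =>
    refine (B.m_zero F X _).trans (Eq.trans ?_ (congrArg (B.ρ X 0 w • ·) (B.m_zero F X y)).symm)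
    rw [F.t_smul, ρ_zero]
  | (k + 1) =>
    exact (B.m_succ F X _ k).trans ((congrArg (B.ρ X (k + 1) w • ·) (B.m_succ F X y k)).trans
      (smul_zero _)).symm

theorem g_act (X : T.C) (w : Om ℂ (T.R X)) (v : (B.cs F X).Tot.V) :
    (B.g F X).f (B.act F X w v) = w • (B.g F X).f v := by
  rw [g_apply, g_apply, act_apply, F.t_smul, ρ_zero, B.good.pb_eq (B.u_r X), B.good.pb_id]

theorem g_smul (X : T.C) (w : Om ℂ (T.R X)) (v : ((B.mid F).F X).M.V) :
    (B.g F X).f (w • v) = w • (B.g F X).f v := B.g_act F X w v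

theorem H_act (X : T.C) (w : Om ℂ (T.R X)) (v : (B.cs F X).Tot.V) :
    B.H F X (B.act F X w v) = B.act F X (Om.sg w) (B.H F X v) := funext fun k =>
  (B.H_apply F X _ k).trans (Eq.trans (by rw [act_apply, F.t_smul, s_ρ])
    (congrArg (B.ρ X k (Om.sg w) • ·) (B.H_apply F X v k)).symm)

theorem H_smul (X : T.C) (w : Om ℂ (T.R X)) (v : ((B.mid F).F X).M.V) :
    B.H F X (w • v) = Om.sg w • B.H F X v := B.H_act F X w v

theorem H_smul' (X : T.C) (w : Om ℂ (T.R X)) (v : ((B.mid F).F X).M.V) :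
    B.H F X (w • v) = Om.sgz (-1) w • B.H F X v := by
  rw [H_smul, Om.sgz_odd (by decide)]

theorem m_tr {X Y : T.C} (φ : X ⟶ Y) (y : (F.F X).M.V) :
    (B.m F Y).f (F.t φ y) = (B.mid F).t φ ((B.m F X).f y) := by
  funext k
  match k with
  | 0 =>
    exact (B.m_zero F Y _).trans ((F.t_eq (B.u_M φ 0).symm y).trans
      (congrArg (F.t (B.M φ 0)) (B.m_zero F X y)).symm)
  | (k + 1) =>
    exact (B.m_succ F Y _ k).trans ((congrArg (F.t (B.M φ (k + 1))) (B.m_succ F X y k)).trans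
      (map_zero _)).symm

theorem qis_m (X : T.C) : GD.Qis (B.m F X) :=
  GD.Qis.of_htpy (B.m F X) (B.g F X) 0 (fun _ _ _ => zero_mem _)
    (fun _ x _ => by rw [g_m]; simp) (B.H F X) (B.H_gr F X) fun _ v _ => B.H_eq F X v

/-- The augmentation as a closed morphism. -/
def mZ : zo (C := otc T) F ⟶ zo (C := otc T) (B.mid F) :=
  otMk (B.m F) (B.m_smul F) (B.m_tr F)

theorem hom_mZ (X : T.C) : (otF T).hom (B.mZ F) X = B.m F X := rfl

variable {F} {F' : OT T}

theorem tc_m {n : ℤ} (u : (otF T).P F F' n) (X : T.C) (y : (F.F X).M.V) :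
    B.tc u X ((B.m F X).f y) = (B.m F' X).f (OT.co u X y) :=
  CS.totLin_aug (B.au F X) (B.au F' X) (sz n) (fun k => OT.co u ((B.U X).P k)) (OT.co u X)
    (fun y => OT.co_tr u (B.con X).e y) y

theorem g_tc {n : ℤ} (u : (otF T).P F F' n) (X : T.C) (v : (B.cs F X).Tot.V) :
    (B.g F' X).f (B.tc u X v) = OT.co u X ((B.g F X).f v) := by
  rw [g_apply, g_apply, tc_apply, pow_zero, one_smul, OT.co_tr]

/-- The augmentation as a natural transformation. -/
def mT : 𝟭 (Z0 (otc T)) ⟶ B.midD.z0 :=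
  otN' (Φ := DGF.id (otc T)) (Ψ := B.midD) (fun F => B.mZ F) fun f _ X x => (B.tc_m f X x).symm

theorem mT_app (F : Z0 (otc T)) : B.mT.app F = B.mZ F := rfl

theorem hom_mT (F : Z0 (otc T)) (X : T.C) : (otF T).hom (B.mT.app F) X = B.m F X := rfl

theorem qis_jH_m (F : OT T) (X : T.C) (h : H389.DO (T.R X) (B.m F X).f) :
    GD.Qis (jH (M := H652.oA (F.F X)) (N := H652.oA ((B.mid F).F X)) (B.m F X) h) := by
  have l0 : ∀ {M N : OmM (T.R X)} {u : M.M.V →ₗ[ℂ] N.M.V},
      (∀ (w : Om ℂ (T.R X)) x, u (w • x) = w • u x) → ∀ (a : T.R X) x, u (a • x) = a • u x :=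
    fun h => om_lin (n := 0) fun w x => by rw [Om.sgz_zero, h]
  refine qis_jH (M := H652.oA (F.F X)) (N := H652.oA ((B.mid F).F X)) (B.m F X) h (B.g F X)
    (H389.DO.lin (l0 (B.g_smul F X))) 0 (H389.DO.lin fun _ _ => (smul_zero _).symm)
    (fun _ _ _ => zero_mem _) (fun _ x _ => ?_) (B.H F X) (H389.DO.lin (om_lin (B.H_smul' F X)))
    (B.H_gr F X) fun _ v _ => B.H_eq F X v
  refine Eq.trans ?_ (congrArg (x - ·) (B.g_m F X x)).symm
  rw [sub_self, LinearMap.zero_apply, LinearMap.zero_apply, map_zero, add_zero]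

/-- The jets of the augmentation. -/
theorem qis_jt_m (F : Z0 (otc T)) (X : T.C) :
    GD.Qis (gh ((jtD B.good).z0.map (B.mT.app F)) X) := B.qis_jH_m F X _

/-- The complex of linear maps into the augmentation. -/
theorem qis_hm_m (F : OT T) (X : T.C) {Q : OmM (T.R X)} (σ : Sg Q) :
    GD.Qis (Hm.post σ (B.m F X) (B.m_smul F X)) := by
  refine GD.Qis.of_htpy _ (Hm.post σ (B.g F X) (B.g_smul F X)) 0 (fun _ _ _ => zero_mem _)
    (fun _ x _ => ?_) (Hm.postC σ (-1) (B.H F X) (B.H_smul' F X))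
    (fun n η h => Hm.postC_mem σ (-1) _ _ (B.H_gr F X) n η h) fun _ η _ => ?_
  · have h : (Hm.post σ (B.g F X) (B.g_smul F X)).f ((Hm.post σ (B.m F X) (B.m_smul F X)).f x) = x :=
      LinearMap.ext fun q => B.g_m F X (x q)
    rw [h]
    simp
  · refine LinearMap.ext fun q => ?_
    change ((B.mid F).F X).M.d (B.H F X (η (σ.sz (-1) (σ.s q)))) -
      B.H F X (η (σ.sz (-1) (Q.M.d (σ.s q)))) + B.H F X (((B.mid F).F X).M.d
        (η (σ.s (σ.sz (-1) q))) - η (Q.M.d (σ.s (σ.sz (-1) q)))) = η q - (B.m F X).f ((B.g F X).f (η q))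
    simp only [σ.sz_odd (n := -1) (by decide), σ.s_s, σ.s_d, map_neg, map_sub, ← B.H_eq]
    abel

end MD

section QS

open Vale.Agent.P286E

variable {I : Type} [SmallCategory I] {D : CD I} {G : Grp}

/-- The coproducts of a test object with the powers of the universal point. -/
def mdQ (K : GK G) (D : CD I) (s : ℂ) : MD (QS D G s) where
  good := (K.gs D s).good
  U X := (undS K s X).co
  con X := undCon K s X
  u X := uA K s X
  M φ := (undM K φ).P
  M_fc φ := (undM K φ).face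
  M_id := undM_id K
  M_comp φ ψ := undM_comp K φ ψ
  u_zero _ := rfl
  u_fc := uA_fc K
  u_s := uA_sU K
  u_M φ := uA_undM K φ
  dl_u X k := dl_of_α (X := fb X) (Y := (undS K s X).PF k) (uA_α K X k)
  dl_fc X k i := dl_of_α ((undS K s X).fc_α k i)
  dl_s X k := dl_of_α (sU_α K X k)
  dl_r X := dl_of_α (X := fb (cop K X)) (Y := fb X) (fold_α K X)

variable (K : GK G) (s : ℂ)

theorem mdQ_P (X : QO D) (k : ℕ) : ((mdQ K D s).U X).P k = (undS K s X).P k := rfl

theorem mdQ_fc (X : QO D) (k i : ℕ) : ((mdQ K D s).U X).fc k i = (undS K s X).fc k i := rfl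

theorem mdQ_u (X : QO D) (k : ℕ) : (mdQ K D s).u X k = uA K s X k := rfl

theorem mdQ_M {X Y : QO D} (φ : Ar G s X Y) (k : ℕ) : (mdQ K D s).M φ k = (undM K φ).P k := rfl

theorem mdQ_r (X : QO D) : ((mdQ K D s).con X).r = fold K s X := rfl

end QS

end

end Vale.Agent.P286EX
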