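import Vale.Agent.P286EXC.Nat
import Vale.Agent.P286EXI.Xi
import Vale.Agent.P286EXU.Hb

/-!
# The comparison data and the evaluation for the generator
-/

set_option linter.all false

namespace Vale.Agent.P286EX

open CategoryTheory TensorProduct Vale.Agent.P286 Vale.Agent.P286.St Vale.Agent.P286.H847
  Vale.Agent.P286.H353 Vale.Agent.P286.H710 Vale.Agent.P286.H697 Vale.Agent.P286E
open Vale.Agent.P286EK (DGA DD DM mdc UU)

noncomputable section

variable {I : Type} [SmallCategory I] {D : CD I} {G : Grp} {s : ℂ} {K : GK G} {xd : XD D}
  {U : Rep K}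

variable (K xd s) in
/-- The comparison of the powers of the universal point with the objects under `X`. -/
def jdQ : JD (ptQ s K xd) (mdQ K D s) where
  j X := (jS K xd s X).P
  j_fc X := (jS K xd s X).face
  j_M φ := jS_undM K xd φ
  j_a X k := (Category.id_comp _).trans ((jS_α K xd X k).trans (uA_α K X k).symm)

theorem jdQ_r (X : QO D) : (jdQ s K xd).j X 0 ≫ ((mdQ K D s).con X).r = zA K xd s X :=
  inr_fold K xd X

namespace PD

variable (P : PD K xd s U)

/-- The free family is the de Rham complex of the generator. -/
def qb : QB P.bd P.xq where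
  u _ := LinearMap.id
  u_d _ _ := rfl
  u_s _ _ := rfl
  u_gr _ _ _ h := h
  u_ra X a x := by
    induction x using DR.induction with
    | zero => exact (map_zero _).trans (map_zero _).symm
    | tmul w p => rfl
    | add x y hx hy =>
      exact (map_add ((P.rho X).raD a) x y).trans ((congrArg₂ (· + ·) hx hy).trans
        (map_add (P.raQ X a) x y).symm)
  u_t _ _ := rfl

end PD

end

end Vale.Agent.P286EX
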