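import Vale.Agent.P286EXC.Cou
import Vale.Agent.P286EXI.Hx

/-!
# The evaluation map as a natural transformation
-/

set_option linter.all false

namespace Vale.Agent.P286EX

open CategoryTheory TensorProduct Vale.Agent.P286 Vale.Agent.P286.St Vale.Agent.P286.H847
  Vale.Agent.P286.H353 Vale.Agent.P286.H710 Vale.Agent.P286.H697
open Vale.Agent.P286EK (DGA DD DM mdc UU)

noncomputable section

variable {T : TSite} {S : GS T} {I : Type} [SmallCategory I] {ix : T.C ⥤ I} {A : DD I}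

namespace EV

variable {B : BD S ix A} {M : DM (pull A ix)} {F : OT T} (E : EV B M F) {pt : PT ix}
  {L : MD T} (J : JD pt L)

/-- The map `a ⊗ w ↦ 1 ⊗ p a ⊗ w`. -/
def gen (B : BD S ix A) (N : DM A) (X : T.C) (p : (B.P.K X).M.V) :
    (A.A (ix.obj X)).R ⊗[ℂ] (UU (N.M (ix.obj X))).V →+ (B.barH N).V X :=
  (TensorProduct.mk (T.R X) (Om ℂ (T.R X)) (B.bK N X).M.V 1).toAddMonoidHom.comp
    (((B.ρ X).ra.flip p).rTensor (UU (N.M (ix.obj X))).V).toAddMonoidHom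

theorem gen_apply (B : BD S ix A) (N : DM A) (X : T.C) (p : (B.P.K X).M.V)
    (z : (A.A (ix.obj X)).R ⊗[ℂ] (UU (N.M (ix.obj X))).V) : gen B N X p z =
      (1 : Om ℂ (T.R X)) ⊗ₜ[T.R X] (((B.ρ X).ra.flip p).rTensor _ z : (B.bK N X).M.V) := rfl

theorem gen_tmul (B : BD S ix A) (N : DM A) (X : T.C) (p : (B.P.K X).M.V)
    (a : (A.A (ix.obj X)).R) (w : (UU (N.M (ix.obj X))).V) : gen B N X p (a ⊗ₜ[ℂ] w) =
      B.as N X ((B.ρ X).raD a ((1 : Om ℂ (T.R X)) ⊗ₜ[T.R X] p) ⊗ₜ[ℂ] w) := rfl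

theorem c_gen (X : T.C) (p : (B.P.K X).M.V)
    (z : (A.A (ix.obj X)).R ⊗[ℂ] (UU ((pt.totM M).M (ix.obj X))).V) :
    (E.c J X).f (gen B (pt.totM M) X p z) =
      E.β J X ((1 : Om ℂ (T.R X)) ⊗ₜ[T.R X] p) ((P286EK.eps ((pt.totM M).M (ix.obj X))).f z) := by
  induction z using TensorProduct.induction_on with
  | zero =>
    exact (congrArg _ (map_zero _)).trans ((map_zero _).trans
      ((congrArg _ (map_zero _)).trans (map_zero _)).symm)
  | tmul a w =>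
    exact (congrArg _ (gen_tmul B _ X p a w)).trans ((E.c_as J X _ w).trans
      ((E.β_act J X a _ _).trans (congrArg _ (P286EK.eps_tmul _ a w).symm)))
  | add x y hx hy =>
    exact (congrArg _ (map_add _ x y)).trans ((map_add _ _ _).trans ((congrArg₂ (· + ·) hx hy).trans
      ((congrArg _ (map_add (P286EK.eps ((pt.totM M).M (ix.obj X))).f x y)).trans
        (map_add _ _ _)).symm))

theorem g_c_gen (X : T.C) (p : (B.P.K X).M.V)
    (z : (A.A (ix.obj X)).R ⊗[ℂ] (UU ((pt.totM M).M (ix.obj X))).V) :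
    (L.g F X).f ((E.c J X).f (gen B (pt.totM M) X p z)) =
      E.e X ((1 : Om ℂ (T.R X)) ⊗ₜ[T.R X] p) ((M.ρ (J.j X 0 ≫ (L.con X).r)).f
        (((P286EK.eps ((pt.totM M).M (ix.obj X))).f z : (pt.cs M (ix.obj X)).Tot.V) 0)) :=
  (congrArg (L.g F X).f (E.c_gen J X p z)).trans (E.g_β J X _ _)

theorem cZ_f (X : T.C) (y : ((B.barH (pt.totM M)).gau.F X).M.V) :
    ((otF T).hom (E.cZ J) X).f y = (E.c J X).f y := congrArg (fun u => u.f y) (E.hom_cZ J X)

theorem cZ_nat {M' : DM (pull A ix)} {F' : OT T} (E' : EV B M' F') (f : (otF T).P F F' 0)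
    (z : DM.Coch M M' 0) (h : ∀ X q η, E'.e X q (z.f X η) = OT.co f X (E.e X q η)) (X : T.C)
    (y : ((B.barH (pt.totM M)).gau.F X).M.V) :
    ((otF T).hom (E'.cZ J) X).f
        (OT.co (HG.gauC (B.bcL (pt.totM M) (pt.totM M') 0 (pt.totC 0 z))) X y) =
      OT.co (L.midC f) X (((otF T).hom (E.cZ J) X).f y) :=
  (E'.cZ_f J X _).trans ((E.c_nat J E' f z h X y).trans
    (congrArg (OT.co (L.midC f) X) (E.cZ_f J X y).symm))

end EV

/-- A natural transformation from a composition of three DG functors. -/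
def natT3 {C E : DGC.{1, 1}} {D : DGC.{1, 0}} (Φ : DGF C D) (Ψ : DGF D E) (Θ : DGF E (otc T)) (M : DGF C (otc T))
    (η : ∀ N : C.Obj, zo (C := otc T) (Θ.obj (Ψ.obj (Φ.obj N))) ⟶ zo (C := otc T) (M.obj N))
    (nat : ∀ {N N' : C.Obj} (f : C.Hom N N' 0) X x,
      ((otF T).hom (η N') X).f (OT.co (Θ.map 0 (Ψ.map 0 (Φ.map 0 f))) X x) =
        OT.co (M.map 0 f) X (((otF T).hom (η N) X).f x)) : Φ.z0 ⋙ Ψ.z0 ⋙ Θ.z0 ⟶ M.z0 where
  app N := η N
  naturality _ _ a := H353.z_ext ((otF T).ext' (nat (zf a)))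

/-- A natural transformation from the de Rham complex of the bar construction to the total. -/
def barN (B : BD S ix A) (L : MD T) (Ξ : DGF (otc T) (mdc A))
    (app : ∀ F : OT T, zo (C := otc T) (B.barH (Ξ.obj F)).gau ⟶ zo (C := otc T) (L.mid F))
    (nat : ∀ {F F' : OT T} (f : (otF T).P F F' 0) X (y : ((B.barH (Ξ.obj F)).gau.F X).M.V),
      ((otF T).hom (app F') X).f (OT.co (HG.gauC (B.bcL (Ξ.obj F) (Ξ.obj F') 0 (Ξ.map 0 f))) X y) =
        OT.co (L.midC f) X (((otF T).hom (app F) X).f y)) :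
    Ξ.z0 ⋙ B.barD.z0 ⋙ (gauD S).z0 ⟶ L.midD.z0 :=
  natT3 Ξ B.barD (gauD S) L.midD app nat

theorem barN_app (B : BD S ix A) (L : MD T) (Ξ : DGF (otc T) (mdc A)) (app nat)
    (F : Z0 (otc T)) : (barN B L Ξ app nat).app F = app F := rfl

/-- A free family which is the de Rham complex of the generator. -/
structure QB (B : BD S ix A) (q : QX ix A) : Type 1 where
  u : ∀ X, B.P.V X →ₗ[Om ℂ (T.R X)] (q.Q.F X).M.V
  u_d : ∀ X x, u X ((B.P.K X).D (bT T X) x) = (q.Q.F X).M.d (u X x)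
  u_s : ∀ X x, u X ((B.σ X).s x) = (q.σ X).s (u X x)
  u_gr : ∀ X (m : ℤ) x, x ∈ (B.P.K X).gr m → u X x ∈ (q.Q.F X).M.gr m
  u_ra : ∀ X a x, u X ((B.ρ X).raD a x) = q.ra X a (u X x)
  u_t : ∀ {X Y : T.C} (φ : X ⟶ Y) x, u Y (B.P.gt φ x) = q.Q.t φ (u X x)

namespace QB

variable {B : BD S ix A} {q : QX ix A} (R : QB B q) {pt : PT ix} {L : MD T} (J : JD pt L)

/-- The evaluation. -/
def ev (F : OT T) : EV B (q.hmM F) F where
  e X := LinearMap.mk₂ ℂ (fun x (η : (q.Φ F X).V) => η (R.u X x))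
    (fun x y η => by rw [map_add, map_add])
    (fun c x η => by rw [LinearMap.map_smul_of_tower, map_csmul])
    (fun _ _ _ => rfl) (fun _ _ _ => rfl)
  e_smul X w x η := by
    change η (R.u X (w • x)) = w • η (R.u X x)
    rw [map_smul, map_smul]
  e_d X x η := by
    change (F.F X).M.d (η (R.u X x)) = η (R.u X ((B.P.K X).D (bT T X) x)) +
      hmd (q.σ X) (F.F X) η (R.u X ((B.σ X).s x))
    rw [hmd_apply, R.u_s, (q.σ X).s_s, R.u_d]
    abel
  e_gr X i j x η hx hη := hη i _ (R.u_gr X i x hx)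
  e_act X a x η := congrArg η (R.u_ra X a x)
  e_t φ x η := (congrArg ((q.ext F φ).f η) (R.u_t φ x)).trans (q.ext_t F φ η _)

theorem ev_e (F : OT T) (X : T.C) (x : B.P.V X) (η : (q.Φ F X).V) :
    (R.ev F).e X x η = η (R.u X x) := rfl

theorem ev_nat {F F' : OT T} (f : (otF T).P F F' 0) (X : T.C) (x : B.P.V X) (η : (q.Φ F X).V) :
    (R.ev F').e X x ((q.hmC 0 f).f X η) = OT.co f X ((R.ev F).e X x η) :=
  congrArg (fun y => OT.co f X (η y)) ((q.σ X).sz_zero _)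

theorem aux (N N' : DM A) {F F' : OT T} (f : (otF T).P F F' 0) (X : T.C)
    (hN : N = pt.totM (q.hmM F)) (hN' : N' = pt.totM (q.hmM F'))
    (z : DM.Coch N N' 0) (h : HEq z (pt.totC 0 (q.hmC 0 f)))
    (a : zo (C := otc T) (B.barH N).gau ⟶ zo (C := otc T) (L.mid F))
    (a' : zo (C := otc T) (B.barH N').gau ⟶ zo (C := otc T) (L.mid F'))
    (ha : HEq a ((R.ev F).cZ J)) (ha' : HEq a' ((R.ev F').cZ J))
    (y : ((B.barH N).gau.F X).M.V) :
    ((otF T).hom a' X).f (OT.co (HG.gauC (B.bcL N N' 0 z)) X y) =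
      OT.co (L.midC f) X (((otF T).hom a X).f y) := by
  subst hN hN' h ha ha'
  exact (R.ev F).cZ_nat J (R.ev F') f (q.hmC 0 f) (R.ev_nat f) X y

/-- The counit as a natural transformation. -/
def cT : (q.xiD pt).z0 ⋙ B.barD.z0 ⋙ (gauD S).z0 ⟶ L.midD.z0 :=
  barN B L (q.xiD pt) (fun F => (R.ev F).cZ J) fun {F F'} f X y =>
    R.aux J _ _ f X (q.xiD_obj pt F) (q.xiD_obj pt F') _ (heq_of_eq (q.xiD_map pt 0 f)) _ _
      HEq.rfl HEq.rfl y

theorem cT_app (F : Z0 (otc T)) : (R.cT J).app F = (R.ev F).cZ J := rfl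

/-- The fold of the counit. -/
theorem g_c (F : OT T) (X : T.C) (p : (B.P.K X).M.V)
    (z : (A.A (ix.obj X)).R ⊗[ℂ] (UU ((q.xiM pt F).M (ix.obj X))).V) :
    (L.g F X).f (((R.ev F).c J X).f (EV.gen B (q.xiM pt F) X p z)) =
      (q.ext F (J.j X 0 ≫ (L.con X).r)).f
        (((P286EK.eps ((q.xiM pt F).M (ix.obj X))).f z : (q.cs pt F (ix.obj X)).Tot.V) 0)
        (R.u X ((1 : Om ℂ (T.R X)) ⊗ₜ[T.R X] p)) := (R.ev F).g_c_gen J X p z

end QB

end

end Vale.Agent.P286EX
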